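import Vale.Agent.P129.Random

/-!
P129: every infinite-dimensional Banach space with a dense set smaller than every cover of the
real line by null sets has a separable infinite-dimensional quotient.
-/

open MeasureTheory Filter

universe u v

namespace Vale.Agent.Results.P129.DensityBelowCovNull

theorem result {𝕜 : Type u} [RCLike 𝕜] {X : Type v} [NormedAddCommGroup X] [NormedSpace 𝕜 X]
    [CompleteSpace X] (hinf : ¬ FiniteDimensional 𝕜 X) (D : Set X) (hD : Dense D) :
    ((∀ 𝒜 : Set (Set ℝ), (∀ A ∈ 𝒜, volume A = 0) → ⋃₀ 𝒜 = Set.univ →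
        Cardinal.lift.{0} (Cardinal.mk D) < Cardinal.lift.{v} (Cardinal.mk 𝒜)) →
      ∃ M : Submodule 𝕜 X, IsClosed (M : Set X) ∧ TopologicalSpace.SeparableSpace (X ⧸ M) ∧
        ¬ FiniteDimensional 𝕜 (X ⧸ M)) ∧
    ∀ N : ℕ → ℕ,
      (∀ S : D → ∀ k, Finset (Fin (N k)),
        (∀ d, ∃ C : ℕ, ∀ k, (S d k).card ≤ C * 4 ^ k) →
        ∃ h : ∀ k, Fin (N k), ∀ d, ∀ᶠ k in atTop, h k ∉ S d k) →
      ∃ M : Submodule 𝕜 X, IsClosed (M : Set X) ∧ TopologicalSpace.SeparableSpace (X ⧸ M) ∧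
        ¬ FiniteDimensional 𝕜 (X ⧸ M) := by
  refine ⟨fun hsmall => ?_, fun N hevade =>
    Vale.Agent.P129.separable_quotient_of_evade hinf hD N hevade⟩
  refine Vale.Agent.P129.separable_quotient_of_not_covered hinf hD fun A hA hcov => ?_
  refine (hsmall (Set.range A) (Set.forall_mem_range.mpr hA)
    (by rw [Set.sUnion_range]; exact hcov)).not_ge ?_
  exact Cardinal.mk_range_le_lift

end Vale.Agent.Results.P129.DensityBelowCovNull
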